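import Vale.Agent.P093.H193.Small
import Vale.Agent.P093.H598.Top

/-!
# P093: radius of comparison of crossed products by minimal homeomorphisms, and the failure of
comparison for arbitrarily small functions
-/

open Vale.Agent.P093 Filter TopologicalSpace
open Vale.Agent.P093.H193 (IsCrossedVia IsPosContraction funMat matMat)
open scoped ENNReal

namespace Vale.Agent.Results.P093.MinimalComparison

universe u v

/-- Minimal homeomorphisms `h` of infinite compact metrizable spaces: (1) `mdim(h)/2 ≤ rc(A)` if
`mdim(h) < ∞` is attained by a finite open cover or seen by integral homology, and more generally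
if `h` is homologically detected; `rc(A) = ∞` if homology sees a proportion `η > 5/6` of covers of
arbitrarily large rate; (2) an inequality for every cover; (3) if `mdim_Z(h) = mdim(h) < ∞`,
comparison fails for arbitrarily small functions, up to the radius `mdim(h)/2`. -/
theorem result :
    ∀ (X : Type u) [TopologicalSpace X] [CompactSpace X] [MetrizableSpace X] [Infinite X]
      (h : X ≃ₜ X), IsMinimalHomeo h →
      (∀ (A : Type v) [CStarAlgebra A] [PartialOrder A] [StarOrderedRing A] (p : C(X, ℂ) → A),
        IsCrossedVia h p →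
        (HomDetected h → meanDim h / 2 ≤ radiusOfComparison A) ∧
        (∀ (U : Set (Set X)) (κ : ℕ), IsFinOpenCover U →
          2 * κ * homRate h U ≤ radiusOfComparison A +
            κ * (4 * κ + 1) / (2 * κ + 1) * coverRate h U) ∧
        (∀ η : ℝ≥0∞, 5 / 6 < η → (∀ c : ℝ≥0∞, c < ∞ → ∃ U, IsFinOpenCover U ∧
          c < coverRate h U ∧ η * coverRate h U ≤ homRate h U) → radiusOfComparison A = ∞) ∧
        (meanDim h ≠ ∞ → homMeanDim h = meanDim h →
          ∀ r ε : ℝ, ENNReal.ofReal r < meanDim h / 2 → 0 < ε →
            ∃ (g : C(X, ℝ)) (m : ℕ) (b : Fin m → Fin m → C(X, ℂ)),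
              (∀ x, 0 ≤ g x ∧ g x ≤ 1) ∧ IsPosContraction b ∧
              (∀ τ : TracialState A, dTau τ (funMat p g) < ε ∧ r < dTau τ (matMat p b)) ∧
              ¬ CuntzLE (funMat p g) (matMat p b))) ∧
      (meanDim h ≠ ∞ → ((∃ U, IsFinOpenCover U ∧ coverRate h U = meanDim h) →
        homMeanDim h = meanDim h) ∧ (homMeanDim h = meanDim h → HomDetected h)) := by
  intro X _ _ _ _ h hmin
  have hm : MarkerProperty h := MK.marker_of_minimal h hmin
  exact ⟨fun A _ _ _ p hA => ⟨fun hd => MK.detected_bound hm hA.isCrossedProduct hd,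
      fun _ κ hU => MK.cover_bound hm hA.isCrossedProduct hU κ,
      fun _ hη H => MK.rc_top_of_ratio hm hA.isCrossedProduct hη H,
      fun hfin heq _ _ hr hε => H193.small_witness (H193.hasMarkers_of hm) hfin heq hA hr hε⟩,
    fun hfin => ⟨fun hatt => le_antisymm (Hom.homMeanDim_le h)
      (T.homMeanDim_eq_of_attained h hfin hatt), Hom.homDetected_of_eq h hfin⟩⟩

end Vale.Agent.Results.P093.MinimalComparison
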