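import Vale.Agent.P093.H193.Small
import Vale.Agent.P093.H598.Top
import Vale.Agent.P093.H598.Section
import Vale.Agent.P093.H598.Density

open Vale.Agent.P093 Filter TopologicalSpace
open Vale.Agent.P093.H193 (IsCrossedVia IsPosContraction funMat matMat)
open scoped ENNReal

namespace Vale.Agent.Results.P093.SmallFunctions

universe u v w

theorem result :
    -- infinite minimal systems and aperiodic zero-dimensional systems have markers, and markers
    -- are inherited by extensions
    (∀ (X : Type u) [TopologicalSpace X] [CompactSpace X] [MetrizableSpace X] [Infinite X]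
      (h : X ≃ₜ X), IsMinimalHomeo h → MarkerProperty h) ∧
    (∀ (X : Type u) [TopologicalSpace X] [CompactSpace X] [T2Space X] [TotallyDisconnectedSpace X]
      (h : X ≃ₜ X), (∀ (n : ℤ) (x : X), 0 < n → (h ^ n) x ≠ x) → MarkerProperty h) ∧
    (∀ (X : Type u) (Y : Type w) [TopologicalSpace X] [TopologicalSpace Y] (h : X ≃ₜ X) (g : Y ≃ₜ Y)
      (f : X → Y), Continuous f → (∀ x, f (h x) = g (f x)) → MarkerProperty g →
      MarkerProperty h) ∧
    -- all homeomorphisms with the marker property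
    ∀ (X : Type u) [TopologicalSpace X] [CompactSpace X] [MetrizableSpace X] [Nonempty X]
      (h : X ≃ₜ X), MarkerProperty h →
      (∀ (A : Type v) [CStarAlgebra A] [PartialOrder A] [StarOrderedRing A] (p : C(X, ℂ) → A),
        IsCrossedVia h p →
        (HomDetected h → meanDim h / 2 ≤ radiusOfComparison A) ∧
        -- comparison fails already for arbitrarily small functions
        (meanDim h ≠ ∞ → homMeanDim h = meanDim h →
          ∀ r ε : ℝ, ENNReal.ofReal r < meanDim h / 2 → 0 < ε →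
            ∃ (g : C(X, ℝ)) (m : ℕ) (b : Fin m → Fin m → C(X, ℂ)),
              (∀ x, 0 ≤ g x ∧ g x ≤ 1) ∧ IsPosContraction b ∧
              (∀ τ : TracialState A, dTau τ (funMat p g) < ε ∧ r < dTau τ (matMat p b)) ∧
              ¬ CuntzLE (funMat p g) (matMat p b)) ∧
        (∀ (U : Set (Set X)) (κ : ℕ), IsFinOpenCover U →
          2 * κ * homRate h U ≤ radiusOfComparison A +
            κ * (4 * κ + 1) / (2 * κ + 1) * coverRate h U) ∧
        -- infinite mean dimension: homology need only see more than 5/6 of it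
        (∀ η : ℝ≥0∞, 5 / 6 < η → (∀ c : ℝ≥0∞, c < ∞ → ∃ U, IsFinOpenCover U ∧
          c < coverRate h U ∧ η * coverRate h U ≤ homRate h U) → radiusOfComparison A = ∞)) ∧
      (meanDim h ≠ ∞ → ((∃ U, IsFinOpenCover U ∧ coverRate h U = meanDim h) →
        homMeanDim h = meanDim h) ∧ (homMeanDim h = meanDim h → HomDetected h)) ∧
      (∀ W : Set (Set X), IsFinOpenCover W → homOrder W ≤ coverDim W ∧ coverRate h W ≠ ∞ ∧
        ∀ (B : Set X) (n : ℕ), NerveClass W B n → n ≤ homOrder W) ∧
      (∀ (q : ℕ) (f : X → Fin q → unitInterval) (N : ℕ → ℕ) (J : ℕ → Finset (ℕ × Fin q))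
        (Ψ : ℕ → (ℕ → Fin q → unitInterval) → X), Continuous f → Tendsto N atTop atTop →
        (∀ k, Continuous (Ψ k)) →
        (∀ k, ∀ p ∈ J k, p.1 < N k ∧ ∀ y, f ((h ^ p.1) (Ψ k y)) p.2 = y p.1 p.2) →
        limsup (fun k => ((J k).card : ℝ≥0∞) / N k) atTop ≤ homMeanDim h) ∧
      -- free blocks over an arbitrary compact space `K`
      (∀ (K : Type w) [TopologicalSpace K] [CompactSpace K] [MetrizableSpace K] [Nonempty K]
        (f : X → K) (N : ℕ → ℕ) (J : ℕ → Finset ℕ) (s : ℕ → (ℕ → K) → X),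
        meanDim (shiftZ K) ≠ ∞ →
        (∃ U, IsFinOpenCover U ∧ coverRate (shiftZ K) U = meanDim (shiftZ K)) →
        Continuous f → Tendsto N atTop atTop → (∀ k, Continuous (s k)) →
        (∀ k, ∀ j ∈ J k, j < N k ∧ ∀ y, f ((h ^ j) (s k y)) = y j) →
        meanDim (shiftZ K) * limsup (fun k => ((J k).card : ℝ≥0∞) / N k) atTop ≤
          homMeanDim h) ∧
      -- sections on finite orbit segments
      (∀ (Y : Type w) [TopologicalSpace Y] (g : Y ≃ₜ Y) (f : X → Y) (s : ℕ → Y → X),
        Continuous f → (∀ N, Continuous (s N)) →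
        (∀ N, ∀ j < N, ∀ y, f ((h ^ j) (s N y)) = (g ^ j) y) →
        meanDim g ≤ meanDim h ∧ homMeanDim g ≤ homMeanDim h) :=
  ⟨fun _ _ _ _ _ h hmin => MK.marker_of_minimal h hmin,
    fun _ _ _ _ _ h hp => MK.marker_of_totallyDisconnected h hp,
    fun _ _ _ _ _ _ _ hf hc hm => MK.marker_of_factor hf hc hm,
    fun _ _ _ _ _ h hm => ⟨fun _ _ _ _ _ hA =>
      ⟨fun hd => MK.detected_bound hm hA.isCrossedProduct hd,
        fun hfin heq _ _ hr hε => H193.small_witness (H193.hasMarkers_of hm) hfin heq hA hr hε,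
        fun _ κ h𝒰 => MK.cover_bound hm hA.isCrossedProduct h𝒰 κ,
        fun _ hη H => MK.rc_top_of_ratio hm hA.isCrossedProduct hη H⟩,
      fun hfin => ⟨fun hatt => le_antisymm (Hom.homMeanDim_le h)
        (T.homMeanDim_eq_of_attained h hfin hatt), Hom.homDetected_of_eq h hfin⟩,
      fun _ h𝒲 => ⟨Hom.homOrder_le_coverDim h𝒲, Hom.coverRate_ne_top h h𝒲,
        fun _ _ hn => Hom.nerveClass_le h𝒲 hn⟩,
      fun _ _ _ _ _ hf hN hΨ hJ => Hom.cubes_bound hf hN hΨ hJ,
      fun _ _ _ _ _ f N J s hfin hatt hf hN hs hJ =>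
        SEC.density_bound h hfin hatt f hf N J s hN hs hJ,
      fun _ _ _ _ s hf hs hfs => SEC.meanDims_le hf s hs hfs⟩⟩

end Vale.Agent.Results.P093.SmallFunctions
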